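import Vale.Agent.P284.H419.AnF
import Vale.Agent.P284.H136.DivS
import Vale.Agent.P284.H213.MF.MfS
import Vale.Agent.P284.H224.Top

/-!
# P284 (helper419): D1 from (A) and (B)
-/

open scoped Manifold ContDiff Topology
open Filter Set Metric Module

noncomputable section

namespace Vale.Agent.P284.H419

open Vale.Agent.P272.K Vale.Agent.P284.H894.G Vale.Agent.P284.H894.W Vale.Agent.P284.H494
  Vale.Agent.P284.H224 Vale.Agent.P284.H279 Vale.Agent.P284.H213.MF Vale.Agent.P284.H213.Grp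
  Vale.Agent.P284.H136

section
variable {W : Type} [NormedAddCommGroup W] [NormedSpace ℂ W] [FiniteDimensional ℂ W]

/-- germs of analytic functions have no zero divisors -/
theorem zero_of_mul {F θ : W → ℂ} {x : W} (hF : AnalyticAt ℂ F x) (hθ : AnalyticAt ℂ θ x)
    (hne : ¬ ∀ᶠ z in 𝓝 x, θ z = 0) (h : ∀ᶠ z in 𝓝 x, F z * θ z = 0) : ∀ᶠ z in 𝓝 x, F z = 0 := by
  have : CompleteSpace W := FiniteDimensional.complete ℂ W
  obtain ⟨r, hr, hb⟩ := Metric.eventually_nhds_iff_ball.1
    ((hF.eventually_analyticAt.and hθ.eventually_analyticAt).and h)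
  obtain ⟨z, hz, hθz⟩ : ∃ z ∈ ball x r, θ z ≠ 0 := by
    by_contra hcon
    push Not at hcon
    exact hne (by filter_upwards [ball_mem_nhds x hr] with z hz using hcon z hz)
  have h1 : ∀ᶠ y in 𝓝 z, F y = 0 := by
    filter_upwards [(hb z hz).1.2.continuousAt.eventually_ne hθz, isOpen_ball.mem_nhds hz]
      with y hy1 hy2
    exact (mul_eq_zero.1 (hb y hy2).2).resolve_right hy1
  have h2 : EqOn F 0 (ball x r) := AnalyticOnNhd.eqOn_zero_of_preconnected_of_eventuallyEq_zero
    (fun y hy => (hb y hy).1.1) (convex_ball _ _).isPreconnected hz h1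
  filter_upwards [ball_mem_nhds x hr] with y hy using h2 hy

theorem Gen.opn {D : Set W} {θ : W → ℂ} {x : W} (h : Gen D θ x) : ∀ᶠ z in 𝓝 x, Gen D θ z := by
  have : CompleteSpace W := FiniteDimensional.complete ℂ W
  obtain ⟨h1, h2, h3, h4⟩ := h
  have h5 : ∀ᶠ z in 𝓝 x, ¬ ∀ᶠ y in 𝓝 z, θ y = 0 := by
    obtain ⟨r, hr, hb⟩ := Metric.eventually_nhds_iff_ball.1 h1.eventually_analyticAt
    filter_upwards [ball_mem_nhds x hr] with z hz hcon
    have h6 : EqOn θ 0 (ball x r) := AnalyticOnNhd.eqOn_zero_of_preconnected_of_eventuallyEq_zero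
      (fun y hy => hb y hy) (convex_ball _ _).isPreconnected hz hcon
    exact h2 (by filter_upwards [ball_mem_nhds x hr] with y hy using h6 hy)
  filter_upwards [h1.eventually_analyticAt, h5, h3.eventually_nhds, h4.eventually_nhds]
    with z a b c d using ⟨a, b, c, d⟩

theorem Gen.unit {D : Set W} {θ θ' : W → ℂ} {x : W} (h : Gen D θ x) (h' : Gen D θ' x) :
    ∃ u : W → ℂ, AnalyticAt ℂ u x ∧ u x ≠ 0 ∧ ∀ᶠ z in 𝓝 x, θ z = u z * θ' z := by
  obtain ⟨g, hg, hgθ⟩ := h'.2.2.2.self_of_nhds θ h.1 (by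
    filter_upwards [h.2.2.1] with z hz hzD using hz.1 hzD)
  obtain ⟨g', hg', hgθ'⟩ := h.2.2.2.self_of_nhds θ' h'.1 (by
    filter_upwards [h'.2.2.1] with z hz hzD using hz.1 hzD)
  refine ⟨g, hg, ?_, hgθ⟩
  have h1 : ∀ᶠ z in 𝓝 x, (1 - g z * g' z) * θ z = 0 := by
    filter_upwards [hgθ, hgθ'] with z a b
    have : θ z = g z * (g' z * θ z) := by rw [← b]; exact a
    linear_combination this
  have h2 : 1 - g x * g' x = 0 :=
    (zero_of_mul (analyticAt_const.sub (hg.mul hg')) h.1 h.2.1 h1).self_of_nhds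
  intro h0
  rw [h0, zero_mul, sub_zero] at h2
  exact one_ne_zero h2

omit [FiniteDimensional ℂ W] in
/-- translation of a germ equation -/
theorem Gen.shift {D : Set W} {θ : W → ℂ} {x : W} (h : Gen D θ x) {l : W}
    (hD : ∀ z, z ∈ D ↔ z - l ∈ D) : Gen D (fun z => θ (z - l)) (x + l) := by
  have hsub : ∀ y : W, Tendsto (fun z : W => z - l) (𝓝 y) (𝓝 (y - l)) := fun y =>
    (by fun_prop : Continuous fun z : W => z - l).tendsto y
  have hadd : ∀ y : W, Tendsto (fun z : W => z + l) (𝓝 y) (𝓝 (y + l)) := fun y =>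
    (by fun_prop : Continuous fun z : W => z + l).tendsto y
  have hx : Tendsto (fun z : W => z - l) (𝓝 (x + l)) (𝓝 x) := by
    have := hsub (x + l)
    rwa [add_sub_cancel_right] at this
  obtain ⟨h1, h2, h3, h4⟩ := h
  have han : ∀ (f : W → ℂ) (y : W), AnalyticAt ℂ f (y - l) → AnalyticAt ℂ (fun z => f (z - l)) y :=
    fun f y hf => AnalyticAt.fun_comp (g := f) (f := fun z : W => z - l) hf (by fun_prop)
  have han' : ∀ (f : W → ℂ) (y : W), AnalyticAt ℂ f (y + l) → AnalyticAt ℂ (fun z => f (z + l)) y :=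
    fun f y hf => AnalyticAt.fun_comp (g := f) (f := fun z : W => z + l) hf (by fun_prop)
  refine ⟨han θ _ (by rwa [add_sub_cancel_right]), ?_, ?_, ?_⟩
  · intro hcon
    apply h2
    filter_upwards [(hadd x).eventually hcon] with z hz
    simpa using hz
  · filter_upwards [hx.eventually h3] with z hz
    rw [hD z]
    exact hz
  · filter_upwards [hx.eventually h4] with y hy f hf hfD
    obtain ⟨g, hg, hgf⟩ := hy (fun z => f (z + l)) (han' f _ (by rwa [sub_add_cancel])) (by
      have h5 : Tendsto (fun z : W => z + l) (𝓝 (y - l)) (𝓝 y) := by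
        have := hadd (y - l)
        rwa [sub_add_cancel] at this
      filter_upwards [h5.eventually hfD] with z hz hzD
      refine hz ((hD _).2 ?_)
      rwa [add_sub_cancel_right])
    refine ⟨fun z => g (z - l), han g _ hg, ?_⟩
    filter_upwards [(hsub y).eventually hgf] with z hz
    simpa using hz

omit [FiniteDimensional ℂ W] in
theorem SmAt.shift {T : Set W} {w : W} (h : SmAt T w) {l : W} (hT : ∀ z, z ∈ T ↔ z - l ∈ T) :
    SmAt T (w + l) := by
  obtain ⟨e, he, h0, hd, hz⟩ := h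
  have hx : Tendsto (fun z : W => z - l) (𝓝 (w + l)) (𝓝 w) := by
    have := (by fun_prop : Continuous fun z : W => z - l).tendsto (w + l)
    rwa [add_sub_cancel_right] at this
  refine ⟨fun z => e (z - l), AnalyticAt.fun_comp (g := e) (f := fun z : W => z - l)
    (by rwa [add_sub_cancel_right]) (by fun_prop), ?_, ?_, ?_⟩
  · show e (w + l - l) = 0
    rwa [add_sub_cancel_right]
  · have h1 : fderiv ℂ (fun z => e (z - l)) (w + l) = fderiv ℂ e (w + l - l) :=
      fderiv_comp_sub l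
    rwa [h1, add_sub_cancel_right]
  · filter_upwards [hx.eventually hz] with z hz'
    rw [hT z]
    exact hz'

omit [FiniteDimensional ℂ W] in
theorem Dv.shift {T : Set W} {l : W} (hT : ∀ z, z ∈ T ↔ z - l ∈ T) (z : W) :
    z ∈ Dv T ↔ z - l ∈ Dv T := by
  have key : ∀ l : W, (∀ z, z ∈ T ↔ z - l ∈ T) → ∀ z, z ∈ Dv T → z + l ∈ Dv T := by
    intro l hT z hz
    have h1 : MapsTo (fun w : W => w + l) {w | SmAt T w} {w | SmAt T w} := fun w hw =>
      SmAt.shift hw hT
    exact h1.closure (by fun_prop) hz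
  constructor
  · intro hz
    have hT' : ∀ z, z ∈ T ↔ z - -l ∈ T := by
      intro z
      rw [sub_neg_eq_add, hT (z + l), add_sub_cancel_right]
    have := key (-l) hT' z hz
    rwa [← sub_eq_add_neg] at this
  · intro hz
    have := key l hT _ hz
    rwa [sub_add_cancel] at this

omit [FiniteDimensional ℂ W] in
theorem Dv.subset {T : Set W} (hT : IsClosed T) : Dv T ⊆ T := by
  refine closure_minimal ?_ hT
  rintro w ⟨e, -, h0, -, hz⟩
  exact hz.self_of_nhds.2 h0

end

/-- **D1** from (B). -/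
theorem d1_of (hB : DivStmt) : D1Stmt := by
  intro n q X _ _ _ _ _ _ w E Γ _ _ _ _ p hp F c hA hy₀ hc
  have hcl : IsClosed (NR n p F) := nr_closed hp.cov hA
  rcases q with _ | k
  · obtain ⟨y₀, hy₀⟩ := hy₀
    refine ⟨fun θ x => AnalyticAt ℂ θ x ∧ θ x ≠ 0, ?_, ?_, Or.inl ?_⟩
    · refine ⟨fun x => ⟨fun _ => 1, analyticAt_const, one_ne_zero⟩, fun θ x h => h.1,
        fun θ x h hcon => h.2 hcon.self_of_nhds, fun θ x h => ?_, fun θ θ' x h h' => ?_,
        fun θ x h l _ => ?_⟩
      · filter_upwards [h.1.eventually_analyticAt, h.1.continuousAt.eventually_ne h.2]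
          with z a b using ⟨a, b⟩
      · refine ⟨fun z => θ z / θ' z, h.1.div h'.1 h'.2, div_ne_zero h.2 h'.2, ?_⟩
        filter_upwards [h'.1.continuousAt.eventually_ne h'.2] with z hz
        rw [div_mul_cancel₀ _ hz]
      · refine ⟨AnalyticAt.fun_comp (g := θ) (f := fun z => z - l) ?_ (by fun_prop), ?_⟩
        · rw [add_sub_cancel_right]
          exact h.1
        · show θ (x + l - l) ≠ 0
          rw [add_sub_cancel_right]
          exact h.2
    · rintro x ⟨θ, ⟨-, h1⟩, h2⟩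
      exact absurd h2 h1
    · rw [eq_empty_iff_forall_notMem]
      rintro t ⟨ht, -⟩
      exact absurd hy₀ (ht y₀ (Subsingleton.elim _ _))
  obtain ⟨R, hR, hRan⟩ := anStmt n (k + 1) X w E Γ p hp F c hA hy₀
  have hint : interior (NR n p F) = ∅ := by
    obtain ⟨-, hd, -, -, -, hne, -⟩ := rvStmt n (k + 1) X w E Γ p hp F c hA hy₀
    rw [interior_eq_empty_iff_dense_compl]
    refine hd.mono fun t ht htn => ?_
    obtain ⟨y, hy⟩ := hne t ht
    exact htn y hy (ht y hy)
  have hthin : Thin k R := by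
    rcases hR.small with h | ⟨h1, h2⟩
    · exact Or.inl h
    · exact Or.inr ⟨by omega, h2⟩
  obtain ⟨hsm, hgen⟩ := hB k (NR n p F) R hcl hint hthin hRan
  have hper : ∀ l ∈ per c hc, ∀ z, z ∈ NR n p F ↔ z - l ∈ NR n p F := by
    rintro _ ⟨g, rfl⟩ z
    constructor
    · intro hz y hy hreg
      refine hz (g • y) ?_ ((per_reg_iff hp hA).2 hreg)
      rw [hA.equiv, hy, sub_add_cancel]
    · intro hz y hy hreg
      have h1 : F (g⁻¹ • y) = z - c g := by
        have h2 := hA.equiv g (g⁻¹ • y)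
        rw [smul_inv_smul, hy] at h2
        rw [h2, add_sub_cancel_right]
      exact hz (g⁻¹ • y) h1 ((per_reg_iff hp hA).2 hreg)
  have hzs : zs (fun θ x => Gen (Dv (NR n p F)) θ x) = Dv (NR n p F) := by
    ext x
    constructor
    · rintro ⟨θ, h1, h2⟩
      exact h1.2.2.1.self_of_nhds.2 h2
    · intro hx
      obtain ⟨θ, hθ⟩ := hgen x
      exact ⟨θ, hθ, hθ.2.2.1.self_of_nhds.1 hx⟩
  refine ⟨fun θ x => Gen (Dv (NR n p F)) θ x, ?_, ?_, ?_⟩
  · exact ⟨hgen, fun θ x h => h.1, fun θ x h => h.2.1, fun θ x h => Gen.opn h,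
      fun θ θ' x h h' => Gen.unit h h', fun θ x h l hl => Gen.shift h (Dv.shift (hper l hl))⟩
  · rw [hzs]
    exact Dv.subset hcl
  · rw [hzs]
    rcases hsm with h | ⟨h1, h2⟩
    · exact Or.inl h
    · exact Or.inr ⟨by omega, h2⟩

end Vale.Agent.P284.H419
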