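import Vale.Agent.P284.H419.AnS

/-!
# P284 (helper419): elementary properties of `Rk2`
-/

open scoped Manifold ContDiff Topology
open Filter Set Metric Module

noncomputable section

namespace Vale.Agent.P284.H419

open Vale.Agent.P272.K Vale.Agent.P284.H224

variable {q : ℕ}

theorem Rk2.mono {R R' : Set (Cm q)} (h : Rk2 q R') (hs : R ⊆ R') : Rk2 q R := by
  obtain ⟨m, G, U, h1, h2⟩ := h
  exact ⟨m, G, U, h1, hs.trans h2⟩

theorem Rk2.empty : Rk2 q (∅ : Set (Cm q)) :=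
  ⟨fun _ => 0, fun _ _ => 0, fun _ => ∅, fun _ => ⟨isOpen_empty, fun _ h => h.elim⟩,
    empty_subset _⟩

theorem Rk2.iUnion_nat {R : ℕ → Set (Cm q)} (h : ∀ i, Rk2 q (R i)) : Rk2 q (⋃ i, R i) := by
  choose m G U h1 h2 using h
  refine ⟨fun k => m k.unpair.1 k.unpair.2, fun k => G k.unpair.1 k.unpair.2,
    fun k => U k.unpair.1 k.unpair.2, fun k => h1 _ _, ?_⟩
  refine iUnion_subset fun i x hx => ?_
  obtain ⟨j, hj⟩ := mem_iUnion.1 (h2 i hx)
  refine mem_iUnion.2 ⟨Nat.pair i j, ?_⟩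
  have key : ∀ a : ℕ × ℕ, a = (i, j) → x ∈ G a.1 a.2 '' {x ∈ U a.1 a.2 |
      finrank ℂ (LinearMap.range (fderiv ℂ (G a.1 a.2) x : Cm (m a.1 a.2) →ₗ[ℂ] Cm q)) + 2 ≤ q} := by
    rintro _ rfl
    exact hj
  exact key _ (Nat.unpair_pair i j)

theorem Rk2.biUnion {ι : Type} {t : Set ι} (ht : t.Countable) {R : ι → Set (Cm q)}
    (h : ∀ x ∈ t, Rk2 q (R x)) : Rk2 q (⋃ x ∈ t, R x) := by
  rcases t.eq_empty_or_nonempty with rfl | hne
  · simpa using Rk2.empty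
  · obtain ⟨f, hf⟩ := ht.exists_eq_range hne
    have h1 : (⋃ x ∈ t, R x) = ⋃ i, R (f i) := by
      rw [hf, biUnion_range]
    rw [h1]
    exact Rk2.iUnion_nat fun i => h _ (hf ▸ mem_range_self i)

theorem Rk2.iUnion {ι : Type} [Countable ι] {R : ι → Set (Cm q)} (h : ∀ i, Rk2 q (R i)) :
    Rk2 q (⋃ i, R i) := by
  have h1 := Rk2.biUnion (t := (univ : Set ι)) countable_univ (R := R) fun i _ => h i
  simpa using h1

theorem Rk2.union {R R' : Set (Cm q)} (h : Rk2 q R) (h' : Rk2 q R') : Rk2 q (R ∪ R') := by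
  rw [union_eq_iUnion]
  exact Rk2.iUnion (by rintro (_ | _) <;> simpa)

theorem Rk2.translate {R : Set (Cm q)} (h : Rk2 q R) (v : Cm q) :
    Rk2 q ((fun x => x + v) ⁻¹' R) := by
  obtain ⟨m, G, U, h1, h2⟩ := h
  refine ⟨m, fun k x => G k x - v, U, fun k => ⟨(h1 k).1, fun x hx =>
    ((h1 k).2 x hx).sub analyticAt_const⟩, ?_⟩
  intro x hx
  obtain ⟨k, z, ⟨hz, hr⟩, hzx⟩ := mem_iUnion.1 (h2 hx)
  refine mem_iUnion.2 ⟨k, z, ⟨hz, ?_⟩, ?_⟩
  · have h3 : fderiv ℂ (fun x => G k x - v) z = fderiv ℂ (G k) z := fderiv_sub_const v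
    rw [h3]
    exact hr
  · show G k z - v = x
    rw [hzx]
    simp

/-- `Rk2` sets are small. -/
theorem Rk2.small {R : Set (Cm q)} (h : Rk2 q R) : Small q R := by
  obtain ⟨m, G, U, h1, h2⟩ := h
  by_cases hq : 2 ≤ q
  · right
    refine ⟨hq, (H10.Cov.iUnion_nat fun k => ?_).mono h2⟩
    refine (H10.img (m k) (Cm (m k)) (by simp) (Cm q) (G k) (U k) (h1 k).1
      (fun x hx => ((h1 k).2 x hx).differentiableAt.differentiableWithinAt) (q - 2)).mono ?_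
    refine image_mono ?_
    rintro z ⟨hz, hr⟩
    exact ⟨hz, by omega⟩
  · left
    rw [eq_empty_iff_forall_notMem]
    intro x hx
    obtain ⟨k, z, ⟨hz, hr⟩, -⟩ := mem_iUnion.1 (h2 hx)
    omega

end Vale.Agent.P284.H419
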