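import Vale.Agent.P284.H419.Loc
import Vale.Agent.P284.H419.Rk
import Vale.Agent.P284.H224.Base

/-!
# P284 (helper419): assembly of (A)
-/

open scoped Manifold ContDiff Topology
open Filter Set Metric Module

noncomputable section

namespace Vale.Agent.P284.H419

open Vale.Agent.P272.K Vale.Agent.P284.H894.G Vale.Agent.P284.H894.W Vale.Agent.P284.H494
  Vale.Agent.P284.H224 Vale.Agent.P284.H10

/-- **(A)** from (A1). -/
theorem an_of (hfib : FibStmt) : AnStmt := by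
  intro n q X _ _ _ _ _ _ w E Γ _ _ _ _ p hp F c hA ⟨y₀, hy₀⟩
  obtain ⟨B, hB⟩ := hA.hol
  have hFc := per_cont hp.cov hA
  rcases Nat.eq_zero_or_pos q with hq0 | hq
  · subst hq0
    refine ⟨∅, Rk2.empty, fun t _ => ⟨univ, univ_mem, Unit, fun _ _ => 1,
      fun _ _ _ => analyticAt_const, fun s _ => ?_⟩⟩
    constructor
    · intro hs
      exact absurd hy₀ (hs y₀ (Subsingleton.elim _ _))
    · intro h
      exact absurd (h ()) one_ne_zero
  have hqn : q ≤ n := by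
    obtain ⟨e, ε, hε, hyε, -, -⟩ := exists_ch (n := n) hp.cov y₀ univ_mem
    exact N_le_n ((hε.reg_iff hp.cov hB hyε).1 hy₀)
  have hdense := reg_dense (n := n) hq hp.cov hB ⟨y₀, hy₀⟩
  -- charts
  obtain ⟨C, hC, hcov⟩ := exists_compact_X hp n
  choose e ε hε hyε _ hconv using fun y : E => exists_ch (n := n) hp.cov y univ_mem
  have hdiff : ∀ y, DifferentiableOn ℂ (F ∘ (ε y).symm) (ε y).target := fun y =>
    (hε y).diff hB
  have hex : ∀ y, ∃ z ∈ (ε y).target, Function.Surjective (fderiv ℂ (F ∘ (ε y).symm) z) := by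
    intro y
    obtain ⟨y', hy', hr⟩ := hdense.inter_open_nonempty _ (ε y).open_source ⟨y, hyε y⟩
    exact ⟨ε y y', (ε y).map_source hy', ((hε y).reg_iff hp.cov hB hy').1 hr⟩
  choose R hR hRf using fun y => hfib n q (F ∘ (ε y).symm) (ε y).target hq (ε y).open_target
    (hconv y) (hdiff y) (hex y)
  obtain ⟨T, hT⟩ := hC.elim_nhds_subcover (fun y => (ε y).source)
    fun y _ => (ε y).open_source.mem_nhds (hyε y)
  refine ⟨⋃ v ∈ range c, ⋃ y ∈ (T : Set E), (fun x => x + v) ⁻¹' (R y), ?_, ?_⟩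
  · refine Rk2.biUnion (per_countable hA) fun v _ => Rk2.biUnion T.countable_toSet fun y _ => ?_
    exact (hR y).translate v
  intro t ht
  -- the local statement at a point of the fibre
  have hpt : ∀ y, F y = t → ∃ V ∈ 𝓝 t, ∃ O ∈ 𝓝 y, ∃ (ι : Type) (h : ι → Cm q → ℂ),
      (∀ i, ∀ s ∈ V, AnalyticAt ℂ (h i) s) ∧ ∀ s ∈ V,
        ((∀ i, h i s = 0) → ∀ y' ∈ O, F y' = s → ¬ Reg (n := n) p F y') ∧
        ((∀ y', F y' = s → ¬ Reg (n := n) p F y') → ∀ i, h i s = 0) := by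
    intro y hy
    obtain ⟨g, hg⟩ := hcov y
    obtain ⟨x, hxT, hx⟩ := mem_iUnion₂.1 (hT.2 hg)
    have hFg : F (g • y) = t + c g := by rw [hA.equiv, hy]
    have htR : t + c g ∉ R x := fun h => ht (mem_iUnion₂.2 ⟨c g, mem_range_self g,
      mem_iUnion₂.2 ⟨x, hxT, h⟩⟩)
    obtain ⟨hcf, hrk⟩ := hRf x _ htR
    set z₀ := ε x (g • y) with hz₀
    have hz₀t : z₀ ∈ (ε x).target := (ε x).map_source hx
    have hfz₀ : (F ∘ (ε x).symm) z₀ = t + c g := by
      rw [Function.comp_apply, hz₀, (ε x).left_inv hx, hFg]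
    obtain ⟨V, hV, W, hW, ι, h, hh, hmain⟩ := loc n q (F ∘ (ε x).symm) (ε x).target z₀ hq hqn
      (ε x).open_target hz₀t (hdiff x) (hrk z₀ hz₀t hfz₀) (by rw [hfz₀]; exact hcf)
    have hsh : ContinuousAt (fun s : Cm q => s + c g) t := by fun_prop
    have hgc : Continuous fun y' : E => g • y' := hp.cont g
    refine ⟨(fun s => s + c g) ⁻¹' V, hsh.preimage_mem_nhds (by rwa [← hfz₀]),
      (fun y' => g • y') ⁻¹' ((ε x).source ∩ (ε x) ⁻¹' W), ?_, ι, fun i s => h i (s + c g),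
      fun i s hs => ?_, fun s hs => ⟨?_, ?_⟩⟩
    · refine hgc.continuousAt.preimage_mem_nhds (Filter.inter_mem ((ε x).open_source.mem_nhds hx) ?_)
      exact ((ε x).continuousAt hx).preimage_mem_nhds hW
    · exact AnalyticAt.fun_comp (g := h i) (f := fun s : Cm q => s + c g) (hh i _ hs) (by fun_prop)
    · rintro h0 y' ⟨hy1, hy2⟩ hys hreg
      refine (hmain _ hs).1 h0 _ hy2 ?_ (((hε x).reg_iff hp.cov hB hy1).1
        ((per_reg_iff hp hA).2 hreg))
      rw [Function.comp_apply, (ε x).left_inv hy1, hA.equiv, hys]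
    · intro h0 i
      refine (hmain _ hs).2 (fun z hz hzs hsur => ?_) i
      have h1 : F ((ε x).symm z) = s + c g := hzs
      have h2 : Reg (n := n) p F ((ε x).symm z) := by
        refine ((hε x).reg_iff hp.cov hB ((ε x).map_target hz)).2 ?_
        rwa [(ε x).right_inv hz]
      have h3 : F (g⁻¹ • (ε x).symm z) = s := by
        have h4 := hA.equiv g (g⁻¹ • (ε x).symm z)
        rw [smul_inv_smul, h1] at h4
        exact (add_right_cancel h4).symm
      exact h0 _ h3 ((per_reg_iff hp hA).2 h2)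
  choose! V hV O hO ι h hh hmain using hpt
  obtain ⟨C₁, hC₁, hcov₁⟩ := per_compact hp hA (‖t‖ + 1)
  have hft : IsCompact (C₁ ∩ F ⁻¹' {t}) := hC₁.inter_right (isClosed_singleton.preimage hFc)
  obtain ⟨T₁, hT₁c⟩ := hft.elim_nhds_subcover' (fun y _ => interior (O y))
    fun y hy => interior_mem_nhds.2 (hO y hy.2)
  set U := ⋃ y ∈ T₁, interior (O (y : E)) with hU
  have hUo : IsOpen U := isOpen_biUnion fun _ _ => isOpen_interior
  have hcl : IsClosed (F '' (C₁ \ U)) := ((hC₁.diff hUo).image hFc).isClosed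
  have htcl : t ∉ F '' (C₁ \ U) := by
    rintro ⟨y, ⟨hy1, hy2⟩, hy3⟩
    exact hy2 (hT₁c ⟨hy1, hy3⟩)
  have hV₁ : (⋂ y ∈ T₁, V (y : E)) ∈ 𝓝 t := by
    rw [Filter.biInter_finset_mem]
    exact fun y _ => hV y y.2.2
  refine ⟨(⋂ y ∈ T₁, V (y : E)) ∩ ((F '' (C₁ \ U))ᶜ ∩ ball t 1),
    Filter.inter_mem hV₁ (Filter.inter_mem (hcl.isOpen_compl.mem_nhds htcl)
      (ball_mem_nhds _ one_pos)), (Σ y : T₁, ι (y : E)), fun i s => h i.1 i.2 s, ?_, ?_⟩
  · rintro ⟨y, i⟩ s ⟨hs, -⟩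
    exact hh _ y.1.2.2 i s (mem_iInter₂.1 hs y.1 y.2)
  · rintro s ⟨hs1, hs2, hs3⟩
    constructor
    · rintro hs ⟨y, i⟩
      exact (hmain _ y.1.2.2 s (mem_iInter₂.1 hs1 y.1 y.2)).2 hs i
    · intro h0 y' hy' hreg
      have hn : ‖F y'‖ ≤ ‖t‖ + 1 := by
        rw [hy']
        rw [mem_ball_iff_norm] at hs3
        have h2 : s = t + (s - t) := by abel
        calc ‖s‖ = ‖t + (s - t)‖ := by rw [← h2]
          _ ≤ ‖t‖ + ‖s - t‖ := norm_add_le _ _
          _ ≤ ‖t‖ + 1 := by linarith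
      obtain ⟨k, hk, hkC⟩ := hcov₁ y' hn
      have hFk : F (k • y') = s := by rw [ker_smul hA hk, hy']
      have hkU : k • y' ∈ U := by
        by_contra hcon
        exact hs2 ⟨_, ⟨hkC, hcon⟩, hFk⟩
      obtain ⟨y, hyT, hyO⟩ := mem_iUnion₂.1 hkU
      refine (hmain _ y.2.2 s (mem_iInter₂.1 hs1 y hyT)).1 (fun i => h0 ⟨⟨y, hyT⟩, i⟩) _
        (interior_subset hyO) hFk ((per_reg_iff hp hA).2 hreg)

end Vale.Agent.P284.H419
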