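import Vale.Agent.P284.H419.An
import Vale.Agent.P284.H15.Fib

/-! # P284 (helper419, helper15): part (A) of (D1) -/

namespace Vale.Agent.P284.H419

/-- **(A)**: the set of the values whose fibre has no regular point is analytic off a small set. -/
theorem anStmt : AnStmt := an_of H15.Fib.fibStmt

end Vale.Agent.P284.H419
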