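import Vale.Agent.P284.H224.TopS

/-!
# P284 (helper419), MF(II), (D1), part (A): the set of the values whose fibre has no regular point is
analytic off a small set. Statements.
-/

open scoped Manifold ContDiff Topology
open Filter Set Metric Module

noncomputable section

namespace Vale.Agent.P284.H419

open Vale.Agent.P272.K Vale.Agent.P284.H894.G Vale.Agent.P284.H894.W Vale.Agent.P284.H494
  Vale.Agent.P284.H224

/-- `R ⊆ ℂ^q` is contained in a countable union of sets `G_k {x ∈ U_k | rank dG_k(x) ≤ q - 2}`, with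
`G_k` analytic on the open set `U_k ⊆ ℂ^{m_k}`. So `R` is `Cov (q - 2)` (`H10.img`), and the image of
`R` in `ℂ^{q-1}` under any linear map is contained in a countable union of thin closed sets
(`H150.Gen.core`). -/
def Rk2 (q : ℕ) (R : Set (Cm q)) : Prop :=
  ∃ (m : ℕ → ℕ) (G : ∀ k, Cm (m k) → Cm q) (U : ∀ k, Set (Cm (m k))),
    (∀ k, IsOpen (U k) ∧ ∀ x ∈ U k, AnalyticAt ℂ (G k) x) ∧
    R ⊆ ⋃ k, G k '' {x ∈ U k | finrank ℂ (LinearMap.range
      (fderiv ℂ (G k) x : Cm (m k) →ₗ[ℂ] Cm q)) + 2 ≤ q}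

/-- `T` is an analytic subset near `t`. -/
def AnAt {q : ℕ} (T : Set (Cm q)) (t : Cm q) : Prop :=
  ∃ V ∈ 𝓝 t, ∃ (ι : Type) (h : ι → Cm q → ℂ), (∀ i, ∀ s ∈ V, AnalyticAt ℂ (h i) s) ∧
    ∀ s ∈ V, s ∈ T ↔ ∀ i, h i s = 0

/-- **(A)** -/
def AnStmt : Prop :=
  ∀ (n q : ℕ) (X : Type) [TopologicalSpace X] [T2Space X] [CompactSpace X] [ConnectedSpace X]
    [ChartedSpace (Cm n) X] [IsManifold 𝓘(ℂ, Cm n) ω X]
    (w : Chart n X → Cm n → Matrix (Fin n) (Fin n) ℂ)
    (E Γ : Type) [TopologicalSpace E] [ConnectedSpace E] [Group Γ] [MulAction Γ E]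
    (p : E → X), IsGalois Γ p →
    ∀ (F : E → Cm q) (c : Γ → Cm q), Per p w F c → (∃ y, Reg (n := n) p F y) →
    ∃ R : Set (Cm q), Rk2 q R ∧ ∀ t ∉ R, AnAt (NR n p F) t

/-- **(A1)** the fibres of a map `f` from a convex open subset of `ℂ^n` to `ℂ^q`, which is submersive
somewhere: off a small set of values, the rank is at least `q - 1` along the fibre, and the fibre is
covered by countably many images of `ℂ^{n-q}`. (`R` contains the values of `f` where the rank is
`≤ q - 2`. The critical set is contained in the zero set of a minor, which is covered by the images of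
countably many analytic maps `γ_i` on open subsets of `ℂ^{n-1}` (as `H10.cov_zero`); `R` contains also
the values of `f ∘ γ_i` where its rank is `≤ q - 2`. Where the rank of `f ∘ γ_i` is `≥ q - 1`, its fibre
is locally contained in a manifold of dimension `n - 1 - (q - 1)`; where `f` is submersive, its fibre is
locally a manifold of dimension `n - q`.) -/
def FibStmt : Prop :=
  ∀ (n q : ℕ) (f : Cm n → Cm q) (B : Set (Cm n)), 1 ≤ q → IsOpen B → Convex ℝ B →
    DifferentiableOn ℂ f B → (∃ z ∈ B, Function.Surjective (fderiv ℂ f z)) →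
    ∃ R : Set (Cm q), Rk2 q R ∧ ∀ t ∉ R, H10.Cov (n - q) {z ∈ B | f z = t} ∧
      ∀ z ∈ B, f z = t → q ≤ finrank ℂ (LinearMap.range (fderiv ℂ f z : Cm n →ₗ[ℂ] Cm q)) + 1

/-- **(A2)** local analyticity: `f` is submersive, or of rank `q - 1`, at `z₀`, and the fibre through
`z₀` has dimension `≤ n - q`. (In suitable coordinates `f (t', u) = (t', φ (t', u))`; one variable
`λ ↦ φ (t'₀, u₀ + λ η) - s₀` not identically zero; the functions
`(t', s) ↦ ∮ (∂_κ φ)^k * ∂_η φ / (φ - s) dλ` at `(t', u + λ η)`.) -/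
def LocStmt : Prop :=
  ∀ (n q : ℕ) (f : Cm n → Cm q) (B : Set (Cm n)) (z₀ : Cm n), 1 ≤ q → q ≤ n → IsOpen B → z₀ ∈ B →
    DifferentiableOn ℂ f B →
    q ≤ finrank ℂ (LinearMap.range (fderiv ℂ f z₀ : Cm n →ₗ[ℂ] Cm q)) + 1 →
    H10.Cov (n - q) {z ∈ B | f z = f z₀} →
    ∃ V ∈ 𝓝 (f z₀), ∃ W ∈ 𝓝 z₀, ∃ (ι : Type) (h : ι → Cm q → ℂ),
      (∀ i, ∀ s ∈ V, AnalyticAt ℂ (h i) s) ∧ ∀ s ∈ V,
        ((∀ i, h i s = 0) → ∀ z ∈ W, f z = s → ¬ Function.Surjective (fderiv ℂ f z)) ∧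
        ((∀ z ∈ B, f z = s → ¬ Function.Surjective (fderiv ℂ f z)) → ∀ i, h i s = 0)

end Vale.Agent.P284.H419
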