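import Vale.Agent.P284.H419.LocA
import Vale.Agent.P284.H419.AnS

/-!
# P284 (helper419): proof of (A2)
-/

open Set Filter Metric Topology Module
open scoped ContDiff

noncomputable section

namespace Vale.Agent.P284.H419

open Vale.Agent.P272.K Vale.Agent.P284.H10

theorem loc : LocStmt := by
  intro n q f B z₀ hq hqn hB hz₀ hf hrk hcov
  have han : ∀ z ∈ B, AnalyticAt ℂ f z := fun z hz =>
    Vale.Agent.P268.analyticOnNhd_of_differentiableOn hB hf z hz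
  by_cases hs : Function.Surjective (fderiv ℂ f z₀)
  · have hstrict : HasStrictFDerivAt f (fderiv ℂ f z₀) z₀ := (han z₀ hz₀).hasStrictFDerivAt
    have hmap := hstrict.map_nhds_eq_of_surj (LinearMap.range_eq_top.2 hs)
    have hS : {z | z ∈ B ∧ Function.Surjective (fderiv ℂ f z)} ∈ 𝓝 z₀ :=
      Filter.inter_mem (hB.mem_nhds hz₀) (surj_open hB hf hz₀ hs)
    refine ⟨f '' {z | z ∈ B ∧ Function.Surjective (fderiv ℂ f z)}, ?_, univ, univ_mem, Unit,
      fun _ _ => 1, fun _ _ _ => analyticAt_const, ?_⟩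
    · rw [← hmap]
      exact image_mem_map hS
    · rintro _ ⟨z, ⟨hzB, hzs⟩, rfl⟩
      exact ⟨fun h => absurd (h ()) one_ne_zero, fun h => absurd hzs (h z hzB rfl)⟩
  have hF : ContDiffAt ℂ ω f z₀ := (han z₀ hz₀).contDiffAt
  obtain ⟨R, K, A, Φ, ψ, hR, hdim, hΦ, hψ, hl, hr, hA, hA'⟩ := straighten hF
  have hRr : finrank ℂ R + 1 = q := by
    have h1 : finrank ℂ R < q := by
      have h2 : R ≠ ⊤ := by
        rw [hR]
        exact fun h => hs (LinearMap.range_eq_top.1 h)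
      have h3 := Submodule.finrank_lt h2
      rwa [Module.finrank_fin_fun] at h3
    have h2 : q ≤ finrank ℂ R + 1 := by
      rw [hR]
      exact hrk
    omega
  have hKr : finrank ℂ K = n - q + 1 := by
    rw [finrank_prod, Module.finrank_fin_fun] at hdim
    omega
  -- the linear form
  obtain ⟨v₀, hv₀, hv₀A⟩ : ∃ v₀ : Cm q, v₀ ≠ 0 ∧ A v₀ = 0 := by
    have h1 : finrank ℂ R < finrank ℂ (Cm q) := by rw [Module.finrank_fin_fun]; omega
    have h2 := LinearMap.ker_ne_bot_of_finrank_lt (f := (A : Cm q →ₗ[ℂ] R)) h1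
    obtain ⟨v, hv, hv0⟩ := (Submodule.ne_bot_iff _).1 h2
    exact ⟨v, hv0, hv⟩
  have hker : ∀ v : Cm q, A v = 0 → ∃ c : ℂ, v = c • v₀ := by
    intro v hv
    have h1 : LinearMap.range (A : Cm q →ₗ[ℂ] R) = ⊤ :=
      LinearMap.range_eq_top.2 fun r => ⟨r, hA' r⟩
    have h2 := LinearMap.finrank_range_add_finrank_ker (A : Cm q →ₗ[ℂ] R)
    rw [h1, finrank_top, Module.finrank_fin_fun] at h2
    have h3 : finrank ℂ (LinearMap.ker (A : Cm q →ₗ[ℂ] R)) = 1 := by omega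
    have h4 := (finrank_eq_one_iff_of_nonzero' (⟨v₀, hv₀A⟩ : LinearMap.ker (A : Cm q →ₗ[ℂ] R))
      (fun h => hv₀ (congrArg Subtype.val h))).1 h3 ⟨v, hv⟩
    obtain ⟨c, hc⟩ := h4
    exact ⟨c, (congrArg Subtype.val hc).symm⟩
  obtain ⟨ℓ, hℓ⟩ : ∃ ℓ : Cm q →L[ℂ] ℂ, ℓ v₀ = 1 := SeparatingDual.exists_eq_one hv₀
  have hinj : ∀ v v' : Cm q, A v = A v' → ℓ v = ℓ v' → v = v' := by
    intro v v' h1 h2
    obtain ⟨c, hc⟩ := hker (v - v') (by rw [map_sub, h1, sub_self])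
    have h3 : ℓ (v - v') = 0 := by rw [map_sub, h2, sub_self]
    rw [hc, map_smul, hℓ, smul_eq_mul, mul_one] at h3
    rw [h3, zero_smul] at hc
    exact sub_eq_zero.1 hc
  -- the radius
  set p₀ := Φ z₀ with hp₀
  have hψ₀ : ψ p₀ = z₀ := hl.self_of_nhds
  have hψc : Tendsto ψ (𝓝 p₀) (𝓝 z₀) := by
    have := hψ.continuousAt.tendsto
    rwa [hψ₀] at this
  have hev : ∀ᶠ p in 𝓝 p₀, (DifferentiableAt ℂ ψ p ∧ ψ p ∈ B) ∧ Φ (ψ p) = p ∧
      DifferentiableAt ℂ Φ (ψ p) := by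
    have e1 : ∀ᶠ p in 𝓝 p₀, DifferentiableAt ℂ ψ p := by
      filter_upwards [hψ.eventually (by simp)] with p hp using hp.differentiableAt (by simp)
    have e2 : ∀ᶠ z in 𝓝 z₀, DifferentiableAt ℂ Φ z := by
      filter_upwards [hΦ.eventually (by simp)] with z hz using hz.differentiableAt (by simp)
    filter_upwards [e1, hψc.eventually (hB.mem_nhds hz₀), hr, hψc.eventually e2] with p a b c d
      using ⟨⟨a, b⟩, c, d⟩
  obtain ⟨δ₀, hδ₀, hball⟩ := Metric.eventually_nhds_iff_ball.1 hev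
  obtain ⟨r₀, κ₀⟩ := p₀
  have hbp : ball (r₀, κ₀) δ₀ = ball r₀ δ₀ ×ˢ ball κ₀ δ₀ := (ball_prod_same _ _ _).symm
  set φ : R × K → ℂ := fun p => ℓ (f (ψ p)) with hφ
  have hfd : ∀ z ∈ B, DifferentiableAt ℂ f z := fun z hz => (han z hz).differentiableAt
  have hφd : ∀ p ∈ ball (r₀, κ₀) δ₀, HasFDerivAt φ
      (ℓ.comp ((fderiv ℂ f (ψ p)).comp (fderiv ℂ ψ p))) p := by
    intro p hp
    obtain ⟨⟨h1, h2⟩, h3, h4⟩ := hball p hp
    exact ℓ.hasFDerivAt.comp p ((hfd _ h2).hasFDerivAt.comp p h1.hasFDerivAt)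
  have hfst : ∀ p ∈ ball (r₀, κ₀) δ₀, A (f (ψ p)) = p.1 := by
    intro p hp
    rw [← hA, (hball p hp).2.1]
  have hcrit : ∀ p ∈ ball (r₀, κ₀) δ₀, (∀ κ', fderiv ℂ φ p (0, κ') = 0) ↔
      ¬ Function.Surjective (fderiv ℂ f (ψ p)) := by
    intro p hp
    obtain ⟨⟨h1, h2⟩, h3, h4⟩ := hball p hp
    rw [(hφd p hp).fderiv]
    set T : R × K →L[ℂ] Cm q := (fderiv ℂ f (ψ p)).comp (fderiv ℂ ψ p) with hT
    have hTd : HasFDerivAt (fun p => f (ψ p)) T p := (hfd _ h2).hasFDerivAt.comp p h1.hasFDerivAt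
    have hAT : ∀ v, A (T v) = v.1 := by
      intro v
      have h5 : HasFDerivAt (fun p => A (f (ψ p))) (A.comp T) p := A.hasFDerivAt.comp p hTd
      have h6 : (fun p => A (f (ψ p))) =ᶠ[𝓝 p] Prod.fst := by
        filter_upwards [isOpen_ball.mem_nhds hp] with p' hp' using hfst p' hp'
      have h7 : HasFDerivAt (fun p : R × K => p.1) (A.comp T) p := h5.congr_of_eventuallyEq h6.symm
      have h8 := h7.unique (hasFDerivAt_fst (𝕜 := ℂ))
      have h9 := congrArg (fun D : R × K →L[ℂ] R => D v) h8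
      simpa using h9
    have hψs : Function.Surjective (fderiv ℂ ψ p) := by
      have h5 : HasFDerivAt (fun p => Φ (ψ p)) ((fderiv ℂ Φ (ψ p)).comp (fderiv ℂ ψ p)) p :=
        h4.hasFDerivAt.comp p h1.hasFDerivAt
      have h6 : (fun p => Φ (ψ p)) =ᶠ[𝓝 p] id := by
        filter_upwards [isOpen_ball.mem_nhds hp] with p' hp' using (hball p' hp').2.1
      have h7 := (h5.congr_of_eventuallyEq h6.symm).unique (hasFDerivAt_id (𝕜 := ℂ) p)
      have h8 : Function.Injective (fderiv ℂ ψ p) := by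
        intro v v' hv
        have h9 := congrArg (fun D : R × K →L[ℂ] R × K => D v) h7
        have h10 := congrArg (fun D : R × K →L[ℂ] R × K => D v') h7
        simp only [ContinuousLinearMap.comp_apply, ContinuousLinearMap.id_apply] at h9 h10
        rw [← h9, ← h10, hv]
      exact (LinearMap.injective_iff_surjective_of_finrank_eq_finrank
        (f := (fderiv ℂ ψ p : R × K →ₗ[ℂ] Cm n)) hdim).1 h8
    have hTs : Function.Surjective (fderiv ℂ f (ψ p)) ↔ Function.Surjective T := by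
      constructor
      · intro h w
        obtain ⟨x, rfl⟩ := h w
        obtain ⟨y, rfl⟩ := hψs x
        exact ⟨y, rfl⟩
      · intro h w
        obtain ⟨x, rfl⟩ := h w
        exact ⟨fderiv ℂ ψ p x, rfl⟩
    rw [hTs]
    constructor
    · intro h hsur
      obtain ⟨⟨ρ, κ'⟩, hv⟩ := hsur v₀
      have h5 := hAT (ρ, κ')
      rw [hv, hv₀A] at h5
      have h6 := h κ'
      simp only at h5
      subst h5
      rw [ContinuousLinearMap.comp_apply, hv, hℓ] at h6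
      exact one_ne_zero h6
    · intro hns κ'
      by_contra hne
      apply hns
      intro w
      obtain ⟨c', hc'⟩ := hker (T (0, κ')) (hAT _)
      obtain ⟨c, hc⟩ := hker (T (A w, 0) - w) (by rw [map_sub, hAT, sub_self])
      have hc0 : c' ≠ 0 := by
        rintro rfl
        rw [zero_smul] at hc'
        apply hne
        rw [ContinuousLinearMap.comp_apply, hc', map_zero]
      refine ⟨(A w, -(c / c') • κ'), ?_⟩
      have h5 : ((A w, -(c / c') • κ') : R × K) = (A w, 0) + (-(c / c')) • (0, κ') := by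
        simp
      rw [h5, map_add, map_smul, hc', smul_smul]
      have h6 : T (A w, 0) = w + c • v₀ := by rw [← hc]; abel
      have h7 : -(c / c') * c' = -c := by field_simp
      rw [h6, h7, neg_smul]
      abel
  -- the function is not constant along the fibre
  have hs₀ : φ (r₀, κ₀) = ℓ (f z₀) := by
    show ℓ (f (ψ (r₀, κ₀))) = _
    rw [hψ₀]
  have hr₀ : A (f z₀) = r₀ := by rw [← hA, ← hp₀]
  have hc₀ : (r₀, κ₀) ∈ ball (r₀, κ₀) δ₀ := mem_ball_self hδ₀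
  have hnc : ∃ κ₁ ∈ ball κ₀ δ₀, φ (r₀, κ₁) ≠ φ (r₀, κ₀) := by
    by_contra hcon
    push Not at hcon
    have hmem : ∀ κ ∈ ball κ₀ δ₀, (r₀, κ) ∈ ball (r₀, κ₀) δ₀ := fun κ hκ => by
      rw [hbp]
      exact ⟨mem_ball_self hδ₀, hκ⟩
    have h1 : (fun κ => ψ (r₀, κ)) '' ball κ₀ δ₀ ⊆ {z ∈ B | f z = f z₀} := by
      rintro _ ⟨κ, hκ, rfl⟩
      refine ⟨(hball _ (hmem κ hκ)).1.2, hinj _ _ ?_ ?_⟩
      · rw [hfst _ (hmem κ hκ), hr₀]
      · rw [← hs₀, ← hcon κ hκ]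
    have h2 : Cov (n - q) ((fun z => (Φ z).2) '' ((fun κ => ψ (r₀, κ)) '' ball κ₀ δ₀)) := by
      refine (hcov.mono h1).image ?_
      rintro _ ⟨κ, hκ, rfl⟩
      exact (hball _ (hmem κ hκ)).2.2.snd
    have h3 : (fun z => (Φ z).2) '' ((fun κ => ψ (r₀, κ)) '' ball κ₀ δ₀) = ball κ₀ δ₀ := by
      ext κ
      constructor
      · rintro ⟨_, ⟨κ', hκ', rfl⟩, rfl⟩
        simp only
        rw [(hball _ (hmem κ' hκ')).2.1]
        exact hκ'
      · intro hκ
        refine ⟨_, ⟨κ, hκ, rfl⟩, ?_⟩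
        simp only
        rw [(hball _ (hmem κ hκ)).2.1]
    rw [h3] at h2
    obtain ⟨x, hx1, hx2⟩ := nonempty_diff (S := ball κ₀ δ₀) (O := ball κ₀ δ₀) (k := n - q)
      (by rwa [inter_self]) (by rw [hKr]) isOpen_ball ⟨κ₀, mem_ball_self hδ₀⟩
    exact hx2 hx1
  have hφO : DifferentiableOn ℂ φ (ball r₀ δ₀ ×ˢ ball κ₀ δ₀) := by
    intro p hp
    rw [← hbp] at hp
    exact (hφd p hp).differentiableAt.differentiableWithinAt
  obtain ⟨δ, hδ, hδle, ι, h, hh, hmain⟩ := coreLoc hδ₀ hφO hnc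
  rw [hs₀] at hh hmain
  have hAl : Continuous fun t : Cm q => (A t, ℓ t) := A.continuous.prodMk ℓ.continuous
  refine ⟨(fun t : Cm q => (A t, ℓ t)) ⁻¹' (ball r₀ δ ×ˢ ball (ℓ (f z₀)) δ), ?_,
    {z | ψ (Φ z) = z ∧ Φ z ∈ ball r₀ δ ×ˢ ball κ₀ δ}, ?_, ι, fun i t => h i (A t, ℓ t), ?_, ?_⟩
  · refine hAl.continuousAt.preimage_mem_nhds ?_
    rw [hr₀]
    exact (isOpen_ball.prod isOpen_ball).mem_nhds ⟨mem_ball_self hδ, mem_ball_self hδ⟩
  · have h1 : ∀ᶠ z in 𝓝 z₀, Φ z ∈ ball r₀ δ ×ˢ ball κ₀ δ := by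
      refine hΦ.continuousAt.eventually ((isOpen_ball.prod isOpen_ball).mem_nhds ?_)
      rw [← hp₀]
      exact ⟨mem_ball_self hδ, mem_ball_self hδ⟩
    exact hl.and h1
  · intro i s hs
    have h1 : AnalyticAt ℂ (fun t : Cm q => (A t, ℓ t)) s :=
      (A.analyticAt s).prod (ℓ.analyticAt s)
    exact AnalyticAt.fun_comp (g := h i) (f := fun t : Cm q => (A t, ℓ t)) (hh i _ hs) h1
  · rintro s ⟨hs1, hs2⟩
    obtain ⟨m1, m2⟩ := hmain (A s) hs1 (ℓ s) hs2
    constructor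
    · rintro h0 z ⟨hz1, hz2, hz3⟩ hzs
      have e1 : (Φ z).1 = A s := by rw [hA, hzs]
      have e2 : Φ z = (A s, (Φ z).2) := Prod.ext e1 rfl
      have e3 : φ (A s, (Φ z).2) = ℓ s := by
        rw [← e2]
        show ℓ (f (ψ (Φ z))) = ℓ s
        rw [hz1, hzs]
      have e4 := m1 h0 (Φ z).2 hz3 e3
      rw [← e2] at e4
      have e5 : Φ z ∈ ball (r₀, κ₀) δ₀ := by
        rw [hbp]
        exact ⟨ball_subset_ball hδle hz2, ball_subset_ball hδle hz3⟩
      have e6 := (hcrit _ e5).1 e4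
      rwa [hz1] at e6
    · intro hall i
      refine m2 (fun κ hκ hφs => ?_) i
      have e5 : (A s, κ) ∈ ball (r₀, κ₀) δ₀ := by
        rw [hbp]
        exact ⟨ball_subset_ball hδle hs1, hκ⟩
      refine (hcrit _ e5).2 (hall _ (hball _ e5).1.2 (hinj _ _ ?_ hφs))
      rw [hfst _ e5]

end Vale.Agent.P284.H419
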