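import Vale.Agent.P284.H419.Res
import Vale.Agent.P284.H10.S4e

/-!
# P284 (helper419): (A2) in straight coordinates
-/

open Set Filter Metric Topology Vale.Agent.P281.MF Module

noncomputable section

namespace Vale.Agent.P284.H419

section
variable {R K : Type} [NormedAddCommGroup R] [NormedSpace ℂ R] [FiniteDimensional ℂ R]
  [NormedAddCommGroup K] [NormedSpace ℂ K] [FiniteDimensional ℂ K]

/-- the integrand -/
def gg (φ : R × K → ℂ) (η κ κ' : K) (k : ℕ) (x : (R × ℂ) × ℂ) : ℂ :=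
  fderiv ℂ φ (x.1.1, κ + x.2 • η) (0, κ') ^ (k + 1) *
    (fderiv ℂ φ (x.1.1, κ + x.2 • η) (0, η) / (φ (x.1.1, κ + x.2 • η) - x.1.2))

theorem coreLoc {φ : R × K → ℂ} {r₀ : R} {κ₀ : K} {δ₀ : ℝ} (hδ₀ : 0 < δ₀)
    (hφ : DifferentiableOn ℂ φ (ball r₀ δ₀ ×ˢ ball κ₀ δ₀))
    (hne : ∃ κ₁ ∈ ball κ₀ δ₀, φ (r₀, κ₁) ≠ φ (r₀, κ₀)) :
    ∃ δ > 0, δ ≤ δ₀ ∧ ∃ (ι : Type) (h : ι → R × ℂ → ℂ),
      (∀ i, ∀ x ∈ ball r₀ δ ×ˢ ball (φ (r₀, κ₀)) δ, AnalyticAt ℂ (h i) x) ∧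
      ∀ r ∈ ball r₀ δ, ∀ s ∈ ball (φ (r₀, κ₀)) δ,
        ((∀ i, h i (r, s) = 0) → ∀ κ ∈ ball κ₀ δ, φ (r, κ) = s →
          ∀ κ', fderiv ℂ φ (r, κ) (0, κ') = 0) ∧
        ((∀ κ ∈ ball κ₀ δ₀, φ (r, κ) = s → ∀ κ', fderiv ℂ φ (r, κ) (0, κ') = 0) →
          ∀ i, h i (r, s) = 0) := by
  have : CompleteSpace R := FiniteDimensional.complete ℂ R
  have : CompleteSpace K := FiniteDimensional.complete ℂ K
  obtain ⟨κ₁, hκ₁, hφ₁⟩ := hne
  set s₀ := φ (r₀, κ₀) with hs₀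
  set η := κ₁ - κ₀ with hη
  have hη0 : 0 < ‖η‖ := by
    rw [norm_pos_iff, hη, sub_ne_zero]
    rintro rfl
    exact hφ₁ rfl
  have hηδ : ‖η‖ < δ₀ := by rwa [hη, ← mem_ball_iff_norm]
  have hO : IsOpen (ball r₀ δ₀ ×ˢ ball κ₀ δ₀) := isOpen_ball.prod isOpen_ball
  have han : ∀ p ∈ ball r₀ δ₀ ×ˢ ball κ₀ δ₀, AnalyticAt ℂ φ p := fun p hp =>
    Vale.Agent.P268.analyticOnNhd_of_differentiableOn hO hφ p hp
  have hr₀ : r₀ ∈ ball r₀ δ₀ := mem_ball_self hδ₀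
  -- the function of one variable
  set g : ℂ → ℂ := fun l => φ (r₀, κ₀ + l • η) - s₀ with hg
  set D : Set ℂ := ball 0 (δ₀ / ‖η‖) with hD
  have hD1 : (1 : ℝ) < δ₀ / ‖η‖ := by rwa [one_lt_div hη0]
  have hgD : ∀ l ∈ D, AnalyticAt ℂ g l := by
    intro l hl
    rw [hD, mem_ball_zero_iff, lt_div_iff₀ hη0] at hl
    have h1 : (r₀, κ₀ + l • η) ∈ ball r₀ δ₀ ×ˢ ball κ₀ δ₀ := by
      refine ⟨hr₀, ?_⟩
      rw [mem_ball_iff_norm, add_sub_cancel_left, norm_smul]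
      exact hl
    have h2 : AnalyticAt ℂ (fun l : ℂ => (r₀, κ₀ + l • η)) l := by fun_prop
    exact (AnalyticAt.fun_comp (g := φ) (f := fun l : ℂ => (r₀, κ₀ + l • η)) (han _ h1) h2).sub
      analyticAt_const
  obtain ⟨ρ, hρ, hρ2, hρg⟩ : ∃ ρ > 0, ρ ≤ 1 / 2 ∧ ∀ l ∈ sphere (0 : ℂ) ρ, g l ≠ 0 := by
    have h0D : (0 : ℂ) ∈ D := mem_ball_self (by positivity)
    have h1D : (1 : ℂ) ∈ D := by
      rw [hD, mem_ball_zero_iff, norm_one]
      exact hD1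
    rcases (hgD 0 h0D).eventually_eq_zero_or_eventually_ne_zero with h | h
    · exfalso
      have h2 : EqOn g 0 D := AnalyticOnNhd.eqOn_zero_of_preconnected_of_eventuallyEq_zero
        (fun l hl => hgD l hl) (convex_ball _ _).isPreconnected h0D h
      have h3 := h2 h1D
      apply hφ₁
      have h4 : κ₀ + (1 : ℂ) • η = κ₁ := by rw [one_smul, hη]; abel
      simp only [hg, Pi.zero_apply, h4, sub_eq_zero] at h3
      exact h3
    · rw [eventually_nhdsWithin_iff, Metric.eventually_nhds_iff] at h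
      obtain ⟨ε, hε, h⟩ := h
      refine ⟨min (ε / 2) (1 / 2), by positivity, min_le_right _ _, fun l hl => ?_⟩
      rw [mem_sphere_zero_iff_norm] at hl
      have hpos : 0 < min (ε / 2) (1 / 2 : ℝ) := by positivity
      refine h (y := l) ?_ ?_
      · rw [dist_zero_right, hl]
        exact (min_le_left _ _).trans_lt (by linarith)
      · rw [mem_compl_iff, mem_singleton_iff]
        rintro rfl
        rw [norm_zero] at hl
        linarith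
  -- the tube
  set W : Set ℂ := ball 0 (2 * ρ) with hW
  have hWo : IsOpen W := isOpen_ball
  have hWη : ∀ l ∈ W, ‖l • η‖ < ‖η‖ := by
    intro l hl
    rw [hW, mem_ball_zero_iff] at hl
    rw [norm_smul]
    have : ‖l‖ < 1 := by linarith
    nlinarith
  have hsW : sphere (0 : ℂ) ρ ⊆ W := by
    intro l hl
    rw [mem_sphere_zero_iff_norm] at hl
    rw [hW, mem_ball_zero_iff, hl]
    linarith
  have hcW : closedBall (0 : ℂ) ρ ⊆ W := closedBall_subset_ball (by linarith)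
  set T : Set (((R × ℂ) × K) × ℂ) := {x | x.1.1.1 ∈ ball r₀ δ₀ ∧
    x.1.2 ∈ ball κ₀ (δ₀ - ‖η‖) ∧ x.2 ∈ W ∧ φ (x.1.1.1, x.1.2 + x.2 • η) - x.1.1.2 ≠ 0} with hT
  have hmem : ∀ r ∈ ball r₀ δ₀, ∀ κ ∈ ball κ₀ (δ₀ - ‖η‖), ∀ l ∈ W,
      (r, κ + l • η) ∈ ball r₀ δ₀ ×ˢ ball κ₀ δ₀ := by
    intro r hr κ hκ l hl
    refine ⟨hr, ?_⟩
    rw [mem_ball_iff_norm] at hκ ⊢
    have h1 : κ + l • η - κ₀ = (κ - κ₀) + l • η := by abel
    rw [h1]
    calc _ ≤ ‖κ - κ₀‖ + ‖l • η‖ := norm_add_le _ _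
      _ < (δ₀ - ‖η‖) + ‖η‖ := add_lt_add hκ (hWη l hl)
      _ = δ₀ := by ring
  have hTo : IsOpen T := by
    rw [isOpen_iff_mem_nhds]
    rintro ⟨⟨⟨r, s⟩, κ⟩, l⟩ ⟨h1, h2, h3, h4⟩
    have hc : ContinuousAt (fun x : ((R × ℂ) × K) × ℂ =>
        φ (x.1.1.1, x.1.2 + x.2 • η) - x.1.1.2) (((r, s), κ), l) := by
      have h5 := (han _ (hmem r h1 κ h2 l h3)).continuousAt
      have h6 : ContinuousAt (fun x : ((R × ℂ) × K) × ℂ => (x.1.1.1, x.1.2 + x.2 • η))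
          (((r, s), κ), l) := by fun_prop
      refine ContinuousAt.sub ?_ (by fun_prop)
      exact ContinuousAt.comp (g := φ) (f := fun x : ((R × ℂ) × K) × ℂ =>
        (x.1.1.1, x.1.2 + x.2 • η)) h5 h6
    have e1 : ∀ᶠ x : ((R × ℂ) × K) × ℂ in 𝓝 (((r, s), κ), l), x.1.1.1 ∈ ball r₀ δ₀ :=
      (by fun_prop : ContinuousAt (fun x : ((R × ℂ) × K) × ℂ => x.1.1.1)
        (((r, s), κ), l)).eventually (isOpen_ball.mem_nhds h1)
    have e2 : ∀ᶠ x : ((R × ℂ) × K) × ℂ in 𝓝 (((r, s), κ), l), x.1.2 ∈ ball κ₀ (δ₀ - ‖η‖) :=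
      (by fun_prop : ContinuousAt (fun x : ((R × ℂ) × K) × ℂ => x.1.2)
        (((r, s), κ), l)).eventually (isOpen_ball.mem_nhds h2)
    have e3 : ∀ᶠ x : ((R × ℂ) × K) × ℂ in 𝓝 (((r, s), κ), l), x.2 ∈ W :=
      (by fun_prop : ContinuousAt (fun x : ((R × ℂ) × K) × ℂ => x.2)
        (((r, s), κ), l)).eventually (hWo.mem_nhds h3)
    have e4 := hc.eventually_ne h4
    filter_upwards [e1, e2, e3, e4] with x x1 x2 x3 x4 using ⟨x1, x2, x3, x4⟩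
  have hx₀T : ({((r₀, s₀), κ₀)} : Set ((R × ℂ) × K)) ×ˢ sphere (0 : ℂ) ρ ⊆ T := by
    rintro ⟨x, l⟩ ⟨hx, hl⟩
    rw [mem_singleton_iff] at hx
    subst hx
    exact ⟨hr₀, mem_ball_self (by linarith), hsW hl, hρg l hl⟩
  obtain ⟨u, v, huo, hvo, hu, hv, huv⟩ := generalized_tube_lemma isCompact_singleton
    (isCompact_sphere (0 : ℂ) ρ) hTo hx₀T
  obtain ⟨δ₁, hδ₁, hδu⟩ := Metric.isOpen_iff.1 huo _ (hu rfl)
  set δ := min δ₁ (δ₀ - ‖η‖) with hδ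
  have hδpos : 0 < δ := lt_min hδ₁ (by linarith)
  have hδη : δ ≤ δ₀ - ‖η‖ := min_le_right _ _
  have hδle : δ ≤ δ₀ := hδη.trans (by linarith [norm_nonneg η])
  have hTv : ∀ r ∈ ball r₀ δ, ∀ s ∈ ball s₀ δ, ∀ κ ∈ ball κ₀ δ, ∀ l ∈ v,
      (((r, s), κ), l) ∈ T := by
    intro r hr s hs κ hκ l hl
    apply huv
    refine ⟨hδu ?_, hl⟩
    rw [mem_ball, Prod.dist_eq, Prod.dist_eq, max_lt_iff, max_lt_iff]
    exact ⟨⟨(mem_ball.1 hr).trans_le (min_le_left _ _), (mem_ball.1 hs).trans_le (min_le_left _ _)⟩,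
      (mem_ball.1 hκ).trans_le (min_le_left _ _)⟩
  have hd : ∀ κ ∈ ball κ₀ δ, ∀ r ∈ ball r₀ δ, ∀ l ∈ W,
      AnalyticAt ℂ φ (r, κ + l • η) := fun κ hκ r hr l hl =>
    han _ (hmem r (ball_subset_ball hδle hr) κ (ball_subset_ball hδη hκ) l hl)
  refine ⟨δ, hδpos, hδle, {κ // κ ∈ ball κ₀ δ} × K × ℕ,
    fun i x => ∮ l in C(0, ρ), gg φ η i.1 i.2.1 i.2.2 (x, l), ?_, ?_⟩
  · rintro ⟨⟨κ, hκ⟩, κ', k⟩ x hx
    have hU : IsOpen (ball r₀ δ ×ˢ ball s₀ δ) := isOpen_ball.prod isOpen_ball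
    refine Vale.Agent.P268.analyticOnNhd_of_differentiableOn hU ?_ x hx
    refine differentiableOn_circleIntegral (E := R × ℂ) (F := ℂ) (c := 0) (R := ρ) hρ.le
      (G := gg φ η κ κ' k) hU hvo hv ?_
    rintro ⟨⟨r, s⟩, l⟩ ⟨⟨hr, hs⟩, hl⟩
    obtain ⟨t1, t2, t3, t4⟩ := hTv r hr s hs κ hκ l hl
    have h1 := hd κ hκ r hr l t3
    have hlin : DifferentiableAt ℂ (fun x : (R × ℂ) × ℂ => (x.1.1, κ + x.2 • η)) ((r, s), l) := by
      fun_prop
    have h2 : DifferentiableAt ℂ (fun x : (R × ℂ) × ℂ => φ (x.1.1, κ + x.2 • η)) ((r, s), l) :=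
      DifferentiableAt.comp (g := φ) (f := fun x : (R × ℂ) × ℂ => (x.1.1, κ + x.2 • η)) ((r, s), l)
        h1.differentiableAt hlin
    have h3 : DifferentiableAt ℂ (fun x : (R × ℂ) × ℂ => fderiv ℂ φ (x.1.1, κ + x.2 • η))
        ((r, s), l) :=
      DifferentiableAt.comp (g := fderiv ℂ φ) (f := fun x : (R × ℂ) × ℂ => (x.1.1, κ + x.2 • η))
        ((r, s), l) h1.fderiv.differentiableAt hlin
    have h4 : ∀ ξ : K, DifferentiableAt ℂ (fun x : (R × ℂ) × ℂ =>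
        fderiv ℂ φ (x.1.1, κ + x.2 • η) (0, ξ)) ((r, s), l) := fun ξ =>
      h3.clm_apply (differentiableAt_const _)
    have h5 : DifferentiableAt ℂ (fun x : (R × ℂ) × ℂ => φ (x.1.1, κ + x.2 • η) - x.1.2)
        ((r, s), l) := h2.sub (by fun_prop)
    have h6 : DifferentiableAt ℂ (fun x : (R × ℂ) × ℂ => (φ (x.1.1, κ + x.2 • η) - x.1.2)⁻¹)
        ((r, s), l) := h5.inv t4
    have h7 := ((h4 κ').pow (k + 1)).mul ((h4 η).mul h6)
    have h8 : gg φ η κ κ' k = (fun x : (R × ℂ) × ℂ => fderiv ℂ φ (x.1.1, κ + x.2 • η) (0, κ')) ^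
        (k + 1) * ((fun x : (R × ℂ) × ℂ => fderiv ℂ φ (x.1.1, κ + x.2 • η) (0, η)) *
          fun x => (φ (x.1.1, κ + x.2 • η) - x.1.2)⁻¹) := by
      funext x
      simp only [gg, Pi.mul_apply, Pi.pow_apply, div_eq_mul_inv]
    rw [h8]
    exact h7.differentiableWithinAt
  · intro r hr s hs
    have key : ∀ κ ∈ ball κ₀ δ, ∃ (Z : Finset ℂ) (m : ℂ → ℕ), (∀ l ∈ Z, 1 ≤ m l) ∧
        (∀ l, l ∈ Z ↔ l ∈ ball (0 : ℂ) ρ ∧ φ (r, κ + l • η) = s) ∧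
        ∀ κ' k, (∮ l in C(0, ρ), gg φ η κ κ' k ((r, s), l)) =
          2 * Real.pi * Complex.I * ∑ l ∈ Z, m l * fderiv ℂ φ (r, κ + l • η) (0, κ') ^ (k + 1) := by
      intro κ hκ
      have hlin : ∀ l : ℂ, HasDerivAt (fun l : ℂ => (r, κ + l • η)) ((0 : R), η) l := by
        intro l
        have h1 : HasDerivAt (fun l : ℂ => κ + l • η) η l := by
          simpa using ((hasDerivAt_id l).smul_const η).const_add κ
        exact (hasDerivAt_const l r).prodMk h1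
      have hder : ∀ l ∈ W, HasDerivAt (fun l : ℂ => φ (r, κ + l • η) - s)
          (fderiv ℂ φ (r, κ + l • η) (0, η)) l := by
        intro l hl
        exact ((hd κ hκ r hr l hl).differentiableAt.hasFDerivAt.comp_hasDerivAt l
          (hlin l)).sub_const s
      have hne : ∀ l ∈ sphere (0 : ℂ) ρ, φ (r, κ + l • η) - s ≠ 0 := fun l hl =>
        (hTv r hr s hs κ hκ l (hv hl)).2.2.2
      have hfd : DifferentiableOn ℂ (fun l : ℂ => φ (r, κ + l • η) - s) W := fun l hl =>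
        (hder l hl).differentiableAt.differentiableWithinAt
      have hfin := finite_zeros_disc hρ hWo hcW hfd hne
      have hZ : ∀ l, l ∈ hfin.toFinset ↔ l ∈ ball (0 : ℂ) ρ ∧ φ (r, κ + l • η) - s = 0 := by
        intro l
        rw [Set.Finite.mem_toFinset]
        rfl
      obtain ⟨m, hm, hint⟩ := arg_g hρ hWo hcW _ hfin.toFinset rfl _ hfd hne hZ
      refine ⟨hfin.toFinset, m, hm, fun l => ?_, fun κ' k => ?_⟩
      · rw [hZ l, sub_eq_zero]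
      · have h1 : DifferentiableOn ℂ (fun l : ℂ => fderiv ℂ φ (r, κ + l • η) (0, κ') ^ (k + 1)) W := by
          intro l hl
          have h3 : DifferentiableAt ℂ (fun l : ℂ => fderiv ℂ φ (r, κ + l • η)) l :=
            DifferentiableAt.comp (g := fderiv ℂ φ) (f := fun l : ℂ => (r, κ + l • η)) l
              (hd κ hκ r hr l hl).fderiv.differentiableAt (hlin l).differentiableAt
          exact ((h3.clm_apply (differentiableAt_const _)).pow (k + 1)).differentiableWithinAt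
        rw [← hint _ h1]
        refine circleIntegral.integral_congr hρ.le fun l hl => ?_
        rw [(hder l (hsW hl)).deriv]
        rfl
    constructor
    · intro h0 κ hκ hφs κ'
      obtain ⟨Z, m, hm, hZ, hint⟩ := key κ hκ
      have h1 : ∀ l ∈ Z, fderiv ℂ φ (r, κ + l • η) (0, κ') = 0 := by
        refine eq_zero_of_sum_pow hm fun k hk => ?_
        obtain ⟨k₀, rfl⟩ : ∃ k₀, k = k₀ + 1 := ⟨k - 1, by omega⟩
        have h2 := h0 ⟨⟨κ, hκ⟩, κ', k₀⟩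
        simp only at h2
        rw [hint κ' k₀] at h2
        exact (mul_eq_zero.1 h2).resolve_left Complex.two_pi_I_ne_zero
      have h2 := h1 0 ((hZ 0).2 ⟨mem_ball_self hρ, by rw [zero_smul, add_zero]; exact hφs⟩)
      rwa [zero_smul, add_zero] at h2
    · rintro hcr ⟨⟨κ, hκ⟩, κ', k⟩
      obtain ⟨Z, m, hm, hZ, hint⟩ := key κ hκ
      simp only
      rw [hint κ' k, Finset.sum_eq_zero, mul_zero]
      intro l hl
      obtain ⟨h1, h2⟩ := (hZ l).1 hl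
      have h3 : κ + l • η ∈ ball κ₀ δ₀ :=
        (hmem r (ball_subset_ball hδle hr) κ (ball_subset_ball hδη hκ) l
          (hcW (ball_subset_closedBall h1))).2
      rw [hcr _ h3 h2 κ', zero_pow (by omega), mul_zero]

end

end Vale.Agent.P284.H419
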