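import Vale.Agent.P281.H303.Gen.AP

/-!
# P284 (helper419): sums over the zeros of a holomorphic function of one variable
-/

open Set Filter Metric Topology Vale.Agent.P281.MF

namespace Vale.Agent.P284.H419

open Vale.Agent.P281.H303.Gen

/-- The residue theorem for `g f' / f`. -/
theorem arg_g {a : ℂ} {R : ℝ} (hR : 0 < R) {U : Set ℂ} (hU : IsOpen U)
    (hRU : closedBall a R ⊆ U) : ∀ (n : ℕ) (Z : Finset ℂ), Z.card = n → ∀ (f : ℂ → ℂ),
    DifferentiableOn ℂ f U → (∀ t ∈ sphere a R, f t ≠ 0) →
    (∀ t, t ∈ Z ↔ t ∈ ball a R ∧ f t = 0) → ∃ m : ℂ → ℕ, (∀ t ∈ Z, 1 ≤ m t) ∧ ∀ φ : ℂ → ℂ,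
      DifferentiableOn ℂ φ U →
      (∮ t in C(a, R), φ t * (deriv f t / f t)) = 2 * Real.pi * Complex.I * ∑ t ∈ Z, m t * φ t := by
  intro n
  induction n with
  | zero =>
    intro Z hZ f hf hne hZf
    rw [Finset.card_eq_zero] at hZ
    subst hZ
    refine ⟨fun _ => 0, by simp, fun φ hφ => ?_⟩
    rw [Finset.sum_empty, mul_zero]
    have hne' : ∀ t ∈ closedBall a R, f t ≠ 0 := by
      intro t ht h0
      rcases (mem_closedBall.1 ht).lt_or_eq with h | h
      · have := (hZf t).2 ⟨h, h0⟩
        simp at this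
      · exact hne t h h0
    have hd : ∀ t ∈ closedBall a R, DifferentiableAt ℂ (fun t => φ t * (deriv f t / f t)) t := by
      intro t ht
      have h1 : AnalyticAt ℂ f t := hf.analyticAt (hU.mem_nhds (hRU ht))
      have h2 : DifferentiableAt ℂ (deriv f) t := h1.deriv.differentiableAt
      exact ((hφ t (hRU ht)).differentiableAt (hU.mem_nhds (hRU ht))).mul
        (h2.div h1.differentiableAt (hne' t ht))
    exact Complex.circleIntegral_eq_zero_of_differentiable_on_off_countable hR.le countable_empty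
      (fun t ht => (hd t ht).continuousAt.continuousWithinAt)
      (fun t ht => hd t (ball_subset_closedBall ht.1))
  | succ n ih =>
    intro Z hZ f hf hne hZf
    obtain ⟨b, hbZ⟩ : Z.Nonempty := by rw [← Finset.card_pos]; omega
    obtain ⟨hb, hfb⟩ := (hZf b).1 hbZ
    have hbU : b ∈ U := hRU (ball_subset_closedBall hb)
    have hnz : ¬ ∀ᶠ t in 𝓝 b, f t = 0 := by
      intro h
      have h1 : AnalyticOnNhd ℂ f (closedBall a R) := fun t ht =>
        hf.analyticAt (hU.mem_nhds (hRU ht))
      have h2 := h1.eqOn_zero_of_preconnected_of_eventuallyEq_zero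
        (convex_closedBall a R).isPreconnected (ball_subset_closedBall hb) h
      obtain ⟨t, ht⟩ : (sphere a R).Nonempty := NormedSpace.sphere_nonempty.2 hR.le
      exact hne t ht (h2 (sphere_subset_closedBall ht))
    obtain ⟨m, g, hg, hgb, hfg, hm⟩ := factor_at hU hf hbU hnz
    have hm1 := hm hfb
    have hfg' : ∀ t, f t = (t - b) ^ m * g t := by
      intro t
      by_cases h : t = b
      · rw [h, hfb, sub_self, zero_pow (by omega), zero_mul]
      · exact hfg t h
    have hsph : ∀ t ∈ sphere a R, t ≠ b := by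
      rintro t ht rfl
      rw [mem_ball] at hb
      rw [mem_sphere] at ht
      linarith
    obtain ⟨m', hm', hint⟩ := ih (Z.erase b) (by rw [Finset.card_erase_of_mem hbZ, hZ]; rfl) g hg
      (fun t ht h0 => hne t ht (by rw [hfg', h0, mul_zero])) (by
        intro t
        rw [Finset.mem_erase, hZf]
        constructor
        · rintro ⟨h1, h2, h3⟩
          refine ⟨h2, ?_⟩
          rw [hfg'] at h3
          exact (mul_eq_zero.1 h3).resolve_left (pow_ne_zero _ (sub_ne_zero.2 h1))
        · rintro ⟨h2, h3⟩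
          refine ⟨?_, h2, by rw [hfg', h3, mul_zero]⟩
          rintro rfl
          exact hgb h3)
    classical
    refine ⟨fun t => if t = b then m else m' t, ?_, fun φ hφ => ?_⟩
    · intro t ht
      by_cases h : t = b
      · simpa [h] using hm1
      · simp only [if_neg h]
        exact hm' t (Finset.mem_erase.2 ⟨h, ht⟩)
    · have hgd : ∀ t ∈ closedBall a R, AnalyticAt ℂ g t := fun t ht =>
        hg.analyticAt (hU.mem_nhds (hRU ht))
      have hφd : ∀ t ∈ closedBall a R, DifferentiableAt ℂ φ t := fun t ht =>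
        (hφ t (hRU ht)).differentiableAt (hU.mem_nhds (hRU ht))
      have h1 : ∀ t ∈ sphere a R, φ t * (deriv f t / f t) =
          (t - b)⁻¹ * (m * φ t) + φ t * (deriv g t / g t) := by
        intro t ht
        have h2 : g t ≠ 0 := fun h0 => hne t ht (by rw [hfg', h0, mul_zero])
        have h3 : t - b ≠ 0 := sub_ne_zero.2 (hsph t ht)
        have h4 : deriv f t = m * (t - b) ^ (m - 1) * g t + (t - b) ^ m * deriv g t := by
          have h5 : HasDerivAt (fun t => (t - b) ^ m * g t)
              (m * (t - b) ^ (m - 1) * 1 * g t + (t - b) ^ m * deriv g t) t :=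
            (((hasDerivAt_id t).sub_const b).pow m).mul
              (hgd t (sphere_subset_closedBall ht)).differentiableAt.hasDerivAt
          rw [show f = fun t => (t - b) ^ m * g t from funext hfg', h5.deriv, mul_one]
        rw [h4, hfg' t]
        obtain ⟨m₀, rfl⟩ : ∃ m₀, m = m₀ + 1 := ⟨m - 1, by omega⟩
        rw [Nat.add_sub_cancel, pow_succ]
        field_simp
      rw [circleIntegral.integral_congr hR.le h1]
      have hi1 : CircleIntegrable (fun t => (t - b)⁻¹ * (m * φ t)) a R := by
        refine ContinuousOn.circleIntegrable hR.le ?_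
        intro t ht
        have h3 : t - b ≠ 0 := sub_ne_zero.2 (hsph t ht)
        exact (((by fun_prop : ContinuousAt (fun t : ℂ => t - b) t).inv₀ h3).mul
          (continuousAt_const.mul
            (hφd t (sphere_subset_closedBall ht)).continuousAt)).continuousWithinAt
      have hi2 : CircleIntegrable (fun t => φ t * (deriv g t / g t)) a R := by
        refine ContinuousOn.circleIntegrable hR.le ?_
        intro t ht
        have h2 : g t ≠ 0 := fun h0 => hne t ht (by rw [hfg', h0, mul_zero])
        have h3 := hgd t (sphere_subset_closedBall ht)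
        exact (ContinuousAt.mul (hφd t (sphere_subset_closedBall ht)).continuousAt
          (h3.deriv.continuousAt.div h3.continuousAt h2)).continuousWithinAt
      rw [circleIntegral.integral_add hi1 hi2, hint φ hφ]
      have h6 : (∮ t in C(a, R), (t - b)⁻¹ * (m * φ t)) = 2 * Real.pi * Complex.I * (m * φ b) := by
        have h7 : DiffContOnCl ℂ (fun t : ℂ => (m : ℂ) * φ t) (ball a R) := by
          have h9 : DifferentiableOn ℂ (fun t : ℂ => (m : ℂ) * φ t) (closedBall a R) :=
            fun t ht => ((hφd t ht).const_mul _).differentiableWithinAt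
          exact h9.diffContOnCl_ball (subset_refl _)
        have h8 := h7.circleIntegral_sub_inv_smul hb
        simpa [smul_eq_mul] using h8
      rw [h6, ← mul_add]
      congr 1
      rw [← Finset.add_sum_erase Z _ hbZ]
      congr 1
      · simp
      · refine Finset.sum_congr rfl fun t ht => ?_
        simp [(Finset.mem_erase.1 ht).1]

/-- A holomorphic function without zeros on the circle has finitely many zeros in the disc. -/
theorem finite_zeros_disc {a : ℂ} {R : ℝ} (hR : 0 < R) {U : Set ℂ} (hU : IsOpen U)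
    (hRU : closedBall a R ⊆ U) {f : ℂ → ℂ} (hf : DifferentiableOn ℂ f U)
    (hne : ∀ t ∈ sphere a R, f t ≠ 0) : {t | t ∈ ball a R ∧ f t = 0}.Finite := by
  have han : AnalyticOnNhd ℂ f (closedBall a R) := fun t ht =>
    hf.analyticAt (hU.mem_nhds (hRU ht))
  have hnz : ∀ b ∈ closedBall a R, ¬ ∀ᶠ t in 𝓝 b, f t = 0 := by
    intro b hb h
    have h2 := han.eqOn_zero_of_preconnected_of_eventuallyEq_zero
      (convex_closedBall a R).isPreconnected hb h
    obtain ⟨t, ht⟩ : (sphere a R).Nonempty := NormedSpace.sphere_nonempty.2 hR.le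
    exact hne t ht (h2 (sphere_subset_closedBall ht))
  by_contra hinf
  have hinf' : {t | t ∈ ball a R ∧ f t = 0}.Infinite := hinf
  obtain ⟨b, hb, hacc⟩ := hinf'.exists_accPt_of_subset_isCompact (isCompact_closedBall a R)
    (fun t ht => ball_subset_closedBall ht.1)
  rcases (han b hb).eventually_eq_zero_or_eventually_ne_zero with h | h
  · exact hnz b hb h
  · rw [accPt_iff_frequently_nhdsNE] at hacc
    exact hacc (h.mono fun t ht h2 => ht h2.2)

/-- If all weighted power sums vanish, all the numbers vanish. -/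
theorem eq_zero_of_sum_pow {ι : Type*} {Z : Finset ι} {m : ι → ℕ} (hm : ∀ t ∈ Z, 1 ≤ m t)
    {x : ι → ℂ} (h : ∀ k : ℕ, 1 ≤ k → ∑ t ∈ Z, (m t : ℂ) * x t ^ k = 0) : ∀ t ∈ Z, x t = 0 := by
  classical
  intro t₀ ht₀
  by_contra hne
  set S : Finset ℂ := (Z.image x).erase (x t₀) with hS
  set P : Polynomial ℂ := Polynomial.X * ∏ s ∈ S.erase 0, (Polynomial.X - Polynomial.C s) with hP
  have hlin : ∀ Q : Polynomial ℂ, Q.coeff 0 = 0 → ∑ t ∈ Z, (m t : ℂ) * Q.eval (x t) = 0 := by
    intro Q hQ
    have h1 : ∀ t, (m t : ℂ) * Q.eval (x t) =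
        ∑ k ∈ Finset.range (Q.natDegree + 1), Q.coeff k * ((m t : ℂ) * x t ^ k) := by
      intro t
      rw [Polynomial.eval_eq_sum_range, Finset.mul_sum]
      refine Finset.sum_congr rfl fun k _ => ?_
      ring
    simp_rw [h1]
    rw [Finset.sum_comm]
    refine Finset.sum_eq_zero fun k _ => ?_
    rw [← Finset.mul_sum]
    rcases Nat.eq_zero_or_pos k with rfl | hk
    · rw [hQ, zero_mul]
    · rw [h k hk, mul_zero]
  have hP0 : P.coeff 0 = 0 := by rw [hP, Polynomial.mul_coeff_zero]; simp
  have hPe : ∀ y, P.eval y = y * ∏ s ∈ S.erase 0, (y - s) := by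
    intro y
    rw [hP, Polynomial.eval_mul, Polynomial.eval_X, Polynomial.eval_prod]
    simp
  have h2 := hlin P hP0
  have h3 : ∀ t ∈ Z, (m t : ℂ) * P.eval (x t) = if x t = x t₀ then (m t : ℂ) * P.eval (x t₀) else 0 := by
    intro t ht
    split_ifs with hx
    · rw [hx]
    · rw [hPe]
      by_cases h0 : x t = 0
      · rw [h0, zero_mul, mul_zero]
      · have h4 : x t ∈ S.erase 0 := by
          rw [Finset.mem_erase, hS, Finset.mem_erase]
          exact ⟨h0, hx, Finset.mem_image_of_mem x ht⟩
        rw [Finset.prod_eq_zero h4 (sub_self _), mul_zero, mul_zero]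
  rw [Finset.sum_congr rfl h3, ← Finset.sum_filter, ← Finset.sum_mul] at h2
  have h5 : P.eval (x t₀) ≠ 0 := by
    rw [hPe]
    refine mul_ne_zero hne (Finset.prod_ne_zero_iff.2 fun s hs => sub_ne_zero.2 ?_)
    rw [Finset.mem_erase, hS, Finset.mem_erase] at hs
    exact fun h => hs.2.1 h.symm
  have h6 : (∑ t ∈ Z with x t = x t₀, (m t : ℂ)) ≠ 0 := by
    rw [← Nat.cast_sum, Nat.cast_ne_zero]
    have h7 : m t₀ ≤ ∑ t ∈ Z with x t = x t₀, m t :=
      Finset.single_le_sum (f := m) (fun _ _ => Nat.zero_le _) (Finset.mem_filter.2 ⟨ht₀, rfl⟩)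
    have := hm t₀ ht₀
    omega
  exact (mul_ne_zero h6 h5) h2

end Vale.Agent.P284.H419
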